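import Vale.Agent.P231.Fm.Fib

/-!
# P231, block Q: degree calculus in the algebra of constant forms

`IsDeg k w` : the element `w` of `Lam E` is homogeneous of degree `k`.
-/

set_option linter.unusedSectionVars false

open Module
open scoped ContDiff

namespace Vale.Agent.P231.Q

open Fm

variable {E : Type*} [NormedAddCommGroup E] [NormedSpace ℝ E] [FiniteDimensional ℝ E]
variable {F : Type*} [NormedAddCommGroup F] [NormedSpace ℝ F] [FiniteDimensional ℝ F]

/-- the homothety of ratio `c` -/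
noncomputable abbrev hom (E : Type*) [NormedAddCommGroup E] [NormedSpace ℝ E] (c : ℝ) :
    E →L[ℝ] E := c • ContinuousLinearMap.id ℝ E

theorem ofFn_smul_prod {A : Type*} [Ring A] [Algebra ℝ A] (c : ℝ) {n : ℕ} (x : Fin n → A) :
    (List.ofFn fun i => c • x i).prod = c ^ n • (List.ofFn x).prod := by
  induction n with
  | zero => simp
  | succ n ih =>
    rw [List.ofFn_succ, List.ofFn_succ, List.prod_cons, List.prod_cons, ih, smul_mul_smul_comm,
      pow_succ']

/-- a basis of homogeneous elements -/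
theorem exists_basis (E : Type*) [NormedAddCommGroup E] [NormedSpace ℝ E]
    [FiniteDimensional ℝ E] : ∃ b : Basis (Finset (Fin (finrank ℝ E))) ℝ (Lam E),
    ∀ s, ∀ c : ℝ, pull (hom E c) (b s) = c ^ s.card • b s := by
  have hd : finrank ℝ (E →L[ℝ] ℝ) = finrank ℝ E := by
    rw [← (LinearMap.toContinuousLinearMap : (E →ₗ[ℝ] ℝ) ≃ₗ[ℝ] (E →L[ℝ] ℝ)).finrank_eq]
    exact Subspace.dual_finrank_eq
  let b0 : Basis (Fin (finrank ℝ E)) ℝ (E →L[ℝ] ℝ) := Module.finBasisOfFinrankEq ℝ _ hd
  obtain ⟨B, hB⟩ : ∃ B : Basis (Finset (Fin (finrank ℝ E))) ℝ (Lam E), ∀ s : Finset _,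
      B s = (List.ofFn fun i : Fin s.card =>
        (dxl (b0 (s.orderEmbOfFin rfl i)) : Lam E)).prod :=
    ⟨b0.ExteriorAlgebra, fun s => ExteriorAlgebra.basis_apply b0 s⟩
  refine ⟨B, fun s c => ?_⟩
  rw [hB, map_list_prod, List.map_ofFn, ← ofFn_smul_prod]
  congr 2
  funext i
  simp only [Function.comp, pull_dxl]
  rw [ContinuousLinearMap.comp_smul, ContinuousLinearMap.comp_id, map_smul]

/-- coordinates of an eigenvector of the homothety of ratio `2` -/
theorem repr_of_eigen {b : Basis (Finset (Fin (finrank ℝ E))) ℝ (Lam E)}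
    (hb : ∀ s, ∀ c : ℝ, pull (hom E c) (b s) = c ^ s.card • b s) (c : ℝ) (w : Lam E)
    (s : Finset (Fin (finrank ℝ E))) :
    b.repr (pull (hom E c) w) s = c ^ s.card * b.repr w s := by
  have h1 : pull (hom E c) w = ∑ t, (c ^ t.card * b.repr w t) • b t := by
    conv_lhs => rw [← b.sum_repr w]
    rw [map_sum]
    refine Finset.sum_congr rfl fun t _ => ?_
    rw [map_smul, hb, smul_smul, mul_comm]
  rw [h1, b.repr_sum_self]

theorem eq_zero_of_eigen {w : Lam E} {r : ℝ} (hw : pull (hom E 2) w = r • w)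
    (hr : ∀ k ≤ finrank ℝ E, r ≠ 2 ^ k) : w = 0 := by
  obtain ⟨b, hb⟩ := exists_basis E
  apply b.repr.injective
  ext s
  have h1 := repr_of_eigen hb 2 w s
  rw [hw, map_smul, Finsupp.smul_apply, smul_eq_mul] at h1
  have h2 : (r - 2 ^ s.card) * b.repr w s = 0 := by rw [sub_mul, h1, sub_self]
  have h3 : r - 2 ^ s.card ≠ 0 := sub_ne_zero.2 (hr _ (by
    simpa using Finset.card_le_univ s))
  rw [map_zero, Finsupp.zero_apply]
  exact (mul_eq_zero.1 h2).resolve_left h3

/-- homogeneous of degree `k` -/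
def IsDeg (k : ℕ) (w : Lam E) : Prop := pull (hom E 2) w = (2 : ℝ) ^ k • w

theorem isDeg_repr {b : Basis (Finset (Fin (finrank ℝ E))) ℝ (Lam E)}
    (hb : ∀ s, ∀ c : ℝ, pull (hom E c) (b s) = c ^ s.card • b s) {k : ℕ} {w : Lam E}
    (hw : IsDeg k w) {s : Finset (Fin (finrank ℝ E))} (hs : s.card ≠ k) : b.repr w s = 0 := by
  have h1 := repr_of_eigen hb 2 w s
  rw [hw, map_smul, Finsupp.smul_apply, smul_eq_mul] at h1
  have h2 : ((2 : ℝ) ^ k - 2 ^ s.card) * b.repr w s = 0 := by rw [sub_mul, h1, sub_self]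
  have h3 : (2 : ℝ) ^ k - 2 ^ s.card ≠ 0 := sub_ne_zero.2 fun h =>
    hs (pow_right_injective₀ (by norm_num : (0 : ℝ) < 2) (by norm_num) h).symm
  exact (mul_eq_zero.1 h2).resolve_left h3

theorem IsDeg.eq_zero {k : ℕ} {w : Lam E} (hw : IsDeg k w) (hk : finrank ℝ E < k) : w = 0 :=
  eq_zero_of_eigen hw fun l hl h => by
    have := pow_right_injective₀ (by norm_num : (0 : ℝ) < 2) (by norm_num) h
    omega

theorem IsDeg.pull_hom {k : ℕ} {w : Lam E} (hw : IsDeg k w) (c : ℝ) :
    pull (hom E c) w = c ^ k • w := by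
  obtain ⟨b, hb⟩ := exists_basis E
  apply b.repr.injective
  ext s
  rw [repr_of_eigen hb c w s, map_smul, Finsupp.smul_apply, smul_eq_mul]
  by_cases hs : s.card = k
  · rw [hs]
  · rw [isDeg_repr hb hw hs, mul_zero, mul_zero]

theorem inv_eq_pull (w : Lam E) : inv w = pull (hom E (-1)) w := by
  have h : (inv : Lam E →ₐ[ℝ] Lam E) = pull (hom E (-1)) := Lam.algHom_ext fun a => by
    rw [inv_dxl, pull_dxl, ContinuousLinearMap.comp_smul, ContinuousLinearMap.comp_id, map_smul,
      neg_one_smul]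
  rw [h]

theorem IsDeg.inv {k : ℕ} {w : Lam E} (hw : IsDeg k w) : Fm.inv w = (-1 : ℝ) ^ k • w := by
  rw [inv_eq_pull, hw.pull_hom]

theorem IsDeg.inv_two {w : Lam E} (hw : IsDeg 2 w) : Fm.inv w = w := by
  rw [hw.inv]
  norm_num

theorem IsDeg.inv_one {w : Lam E} (hw : IsDeg 1 w) : Fm.inv w = -w := by
  rw [hw.inv]
  norm_num

theorem IsDeg.mul {k l : ℕ} {v w : Lam E} (hv : IsDeg k v) (hw : IsDeg l w) :
    IsDeg (k + l) (v * w) := by
  unfold IsDeg at *
  rw [map_mul, hv, hw, smul_mul_smul_comm, pow_add]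

theorem isDeg_zero (k : ℕ) : IsDeg k (0 : Lam E) := by
  unfold IsDeg
  rw [map_zero, smul_zero]

theorem isDeg_one : IsDeg 0 (1 : Lam E) := by
  unfold IsDeg
  rw [map_one, pow_zero, one_smul]

theorem isDeg_algebraMap (r : ℝ) : IsDeg 0 (algebraMap ℝ (Lam E) r) := by
  unfold IsDeg
  rw [AlgHom.commutes, pow_zero, one_smul]

theorem isDeg_dx (a : E →L[ℝ] ℝ) : IsDeg 1 (dx a) := by
  unfold IsDeg
  rw [pull_dx, pow_one, ContinuousLinearMap.comp_smul, ContinuousLinearMap.comp_id, map_smul]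

theorem IsDeg.add {k : ℕ} {v w : Lam E} (hv : IsDeg k v) (hw : IsDeg k w) :
    IsDeg k (v + w) := by
  unfold IsDeg at *
  rw [map_add, hv, hw, smul_add]

theorem IsDeg.neg {k : ℕ} {v : Lam E} (hv : IsDeg k v) : IsDeg k (-v) := by
  unfold IsDeg at *
  rw [map_neg, hv, smul_neg]

theorem IsDeg.sub {k : ℕ} {v w : Lam E} (hv : IsDeg k v) (hw : IsDeg k w) :
    IsDeg k (v - w) := by
  rw [sub_eq_add_neg]
  exact hv.add hw.neg

theorem IsDeg.smul {k : ℕ} {v : Lam E} (hv : IsDeg k v) (r : ℝ) : IsDeg k (r • v) := by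
  unfold IsDeg at *
  rw [map_smul, hv, smul_comm]

theorem IsDeg.sum {ι : Type*} {k : ℕ} (s : Finset ι) {v : ι → Lam E}
    (hv : ∀ i ∈ s, IsDeg k (v i)) : IsDeg k (∑ i ∈ s, v i) := by
  classical
  induction s using Finset.induction_on with
  | empty => simpa using isDeg_zero k
  | insert i s hi ih =>
    rw [Finset.sum_insert hi]
    exact (hv i (Finset.mem_insert_self _ _)).add
      (ih fun j hj => hv j (Finset.mem_insert_of_mem hj))

theorem IsDeg.pow {k : ℕ} {v : Lam E} (hv : IsDeg k v) (n : ℕ) : IsDeg (k * n) (v ^ n) := by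
  induction n with
  | zero => simpa using isDeg_one
  | succ n ih =>
    rw [pow_succ, Nat.mul_succ]
    exact ih.mul hv

theorem IsDeg.pull {k : ℕ} {v : Lam F} (hv : IsDeg k v) (L : E →L[ℝ] F) :
    IsDeg k (Fm.pull L v) := by
  unfold IsDeg at *
  have h : L.comp (hom E 2) = (hom F 2).comp L := by
    ext x
    simp
  rw [← pull_comp_apply, h, pull_comp_apply, hv, map_smul]

theorem IsDeg.iprod {k : ℕ} {w : Lam E} (hw : IsDeg (k + 1) w) (v : E) :
    IsDeg k (Fm.iprod v w) := by
  unfold IsDeg at *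
  have h1 := pull_iprod (hom E 2) v w
  have h2 : (hom E 2) v = (2 : ℝ) • v := by simp
  rw [hw, map_smul, h2, iprod_smul, map_smul] at h1
  have h3 : (2 : ℝ) • ((2 : ℝ) ^ k • Fm.iprod v w) =
      (2 : ℝ) • Fm.pull (hom E 2) (Fm.iprod v w) := by
    rw [← h1, smul_smul, ← pow_succ']
  exact (smul_right_injective (Lam E) (two_ne_zero (α := ℝ)) h3).symm

theorem IsDeg.iprod_zero {w : Lam E} (hw : IsDeg 0 w) (v : E) : Fm.iprod v w = 0 := by
  unfold IsDeg at hw
  rw [pow_zero, one_smul] at hw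
  have h1 := pull_iprod (hom E 2) v w
  have h2 : (hom E 2) v = (2 : ℝ) • v := by simp
  rw [hw, h2, iprod_smul, map_smul] at h1
  refine eq_zero_of_eigen (r := 1 / 2) ?_ fun k _ h => ?_
  · conv_rhs => rw [h1]
    rw [smul_smul]
    norm_num
  · have : (1 : ℝ) ≤ 2 ^ k := one_le_pow₀ (by norm_num)
    linarith

theorem IsDeg.aug {k : ℕ} {w : Lam E} (hw : IsDeg k w) (hk : k ≠ 0) : Fm.aug w = 0 := by
  have h1 : Fm.aug (Fm.pull (hom E 2) w) = Fm.aug w := aug_pull _ _
  rw [hw, map_smul, smul_eq_mul] at h1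
  have h2 : (1 : ℝ) < 2 ^ k := one_lt_pow₀ (by norm_num) hk
  have h3 : ((2 : ℝ) ^ k - 1) * Fm.aug w = 0 := by rw [sub_mul, h1, one_mul, sub_self]
  exact (mul_eq_zero.1 h3).resolve_left (by linarith)

/-- pullback by the zero map -/
theorem pull_zero (w : Lam F) : Fm.pull (0 : E →L[ℝ] F) w = algebraMap ℝ (Lam E) (Fm.aug w) := by
  have h : (Fm.pull (0 : E →L[ℝ] F)) = (Algebra.ofId ℝ (Lam E)).comp Fm.aug :=
    Lam.algHom_ext fun a => by
      rw [pull_dxl, ContinuousLinearMap.comp_zero, map_zero, AlgHom.comp_apply, ← dx_eq, aug_dx,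
        map_zero]
  rw [h]
  rfl

/-- an element of top degree absorbs -/
theorem mul_top {g : Lam E} (hg : IsDeg (finrank ℝ E) g) (w : Lam E) : w * g = Fm.aug w • g := by
  induction w using Lam.ind with
  | h1 r => rw [AlgHom.commutes, ← Algebra.smul_def]; rfl
  | h2 a =>
    rw [aug_dx, zero_smul]
    have h := (isDeg_dx a).mul hg
    exact h.eq_zero (by omega)
  | h3 a b ha hb => rw [mul_assoc, hb, mul_smul_comm, ha, map_mul, smul_smul, mul_comm]
  | h4 a b ha hb => rw [add_mul, ha, hb, map_add, add_smul]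

/-- pullback of an element of degree two along a map which factors through zero -/
theorem IsDeg.pull_zero_eq {k : ℕ} {w : Lam F} (hw : IsDeg k w) (hk : k ≠ 0) :
    Fm.pull (0 : E →L[ℝ] F) w = 0 := by
  rw [pull_zero, hw.aug hk, map_zero]

/-- a form killed by a nonzero vector has no top degree part -/
theorem evalForm_eq_zero_of_iprod {n : ℕ} (b : Basis (Fin n) ℝ E) {w : Lam E} {v : E}
    (hv : v ≠ 0) (hw : Fm.iprod v w = 0) : evalForm w b = 0 := by
  obtain ⟨i, hi⟩ : ∃ i, b.repr v i ≠ 0 := by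
    by_contra h
    push Not at h
    exact hv (b.repr.map_eq_zero_iff.1 (Finsupp.ext h))
  -- replace the vector `b i` by `v`
  have h1 : evalForm w (Function.update b i v) = b.repr v i * evalForm w b := by
    have hs : v = ∑ j, b.repr v j • b j := (b.sum_repr v).symm
    conv_lhs => rw [hs]
    rw [AlternatingMap.map_update_sum, Finset.sum_eq_single i]
    · rw [AlternatingMap.map_update_smul, Function.update_eq_self, smul_eq_mul]
    · intro j _ hj
      rw [AlternatingMap.map_update_smul, AlternatingMap.map_update_self _ _ (Ne.symm hj),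
        smul_zero]
    · intro h
      exact absurd (Finset.mem_univ _) h
  have h2 : evalForm w (Function.update b i v) = 0 := by
    -- `cont` of a family containing `v`
    have key : ∀ (k : ℕ) (u : Fin k → E) (z : Lam E) (j : Fin k), u j = v → Fm.iprod v z = 0 →
        cont u z = 0 := by
      intro k
      induction k with
      | zero => intro u z j; exact j.elim0
      | succ k ih =>
        intro u z j hj hz
        rw [cont_succ]
        induction j using Fin.cases with
        | zero => rw [hj, hz, map_zero]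
        | succ j =>
          refine ih _ _ j hj ?_
          rw [iprod_anticomm, hz, map_zero, neg_zero]
    rw [evalForm_apply, key n _ w i (Function.update_self _ _ _) hw, map_zero]
  rw [h1] at h2
  exact (mul_eq_zero.1 h2).resolve_left hi

/-- the exterior derivative raises the degree by one -/
theorem IsDeg.extd {k : ℕ} {w : E → Lam E} {x : E} (hd : DifferentiableAt ℝ w x)
    (hw : ∀ᶠ y in nhds x, IsDeg k (w y)) : IsDeg (k + 1) (extd w x) := by
  have h1 : ∀ v, IsDeg k (fderiv ℝ w x v) := by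
    intro v
    have h2 : (fun y => Fm.pull (hom E 2) (w y)) =ᶠ[nhds x] fun y => (2 : ℝ) ^ k • w y := by
      filter_upwards [hw] with y hy using hy
    have h3 : HasFDerivAt (fun y => Fm.pull (hom E 2) (w y)) (pullL (hom E 2) ∘L fderiv ℝ w x) x :=
      (pullL (hom E 2)).hasFDerivAt.comp x hd.hasFDerivAt
    have h4 : HasFDerivAt (fun y => (2 : ℝ) ^ k • w y) ((2 : ℝ) ^ k • fderiv ℝ w x) x :=
      hd.hasFDerivAt.fun_const_smul _
    have h5 := h3.unique (h4.congr_of_eventuallyEq h2)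
    exact DFunLike.congr_fun h5 v
  unfold Fm.extd
  rw [dLin_apply]
  refine IsDeg.sum _ fun i _ => ?_
  rw [add_comm]
  exact (isDeg_dx _).mul (h1 _)

end Vale.Agent.P231.Q
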