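import Vale.Agent.P231.Q.Deg

/-!
# P231, block Q: the fibre operator

`phi μ b r w x = ∫_y (vertical part of dr ∧ w)(x, y)` : integration over the spheres in the
fibres (`r` is a radial cutoff function, equal to `0` near `0` and to `1` near infinity).
-/

set_option linter.unusedSectionVars false

open Module MeasureTheory Set Filter Topology
open scoped ContDiff

namespace Vale.Agent.P231.Q

open Fm

variable {E : Type*} [NormedAddCommGroup E] [NormedSpace ℝ E] [FiniteDimensional ℝ E]
variable {F : Type*} [NormedAddCommGroup F] [NormedSpace ℝ F] [FiniteDimensional ℝ F]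
  [MeasurableSpace F] [BorelSpace F]

/-- pullback from the base -/
noncomputable def pf (a : Lam E) : Lam (E × F) := pull (ContinuousLinearMap.fst ℝ E F) a

/-- pullback from the fibre -/
noncomputable def ps (a : Lam F) : Lam (E × F) := pull (ContinuousLinearMap.snd ℝ E F) a

theorem iprod_zero_left (a : Lam E) : iprod (0 : E) a = 0 := by
  have := iprod_smul 0 (0 : E) a
  rwa [zero_smul, zero_smul] at this

theorem iprod_vert_pf (u : F) (a : Lam E) : iprod ((0, u) : E × F) (pf a) = 0 := by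
  rw [pf, pull_iprod]
  have h0 : (ContinuousLinearMap.fst ℝ E F) ((0, u) : E × F) = 0 := rfl
  rw [h0, iprod_zero_left, map_zero]

theorem cont_mul_pf {k : ℕ} (v : Fin k → F) (w : Lam (E × F)) (a : Lam E) :
    cont (vert v) (w * pf a) = cont (vert v) w * pf a := by
  induction k generalizing w with
  | zero => rfl
  | succ k ih =>
    rw [cont_succ, cont_succ]
    have h : (fun i : Fin k => vert (E := E) v i.succ) = vert fun i => v i.succ := rfl
    have h1 : iprod (vert (E := E) v 0) (w * pf a) = iprod (vert v 0) w * pf a := by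
      rw [iprod_mul, vert, iprod_vert_pf, mul_zero, add_zero]
    rw [h1, h, ih]

theorem pull_inl_pf (a : Lam E) : pull (ContinuousLinearMap.inl ℝ E F) (pf a) = a := by
  rw [pf, ← pull_comp_apply]
  have h3 : (ContinuousLinearMap.fst ℝ E F).comp (ContinuousLinearMap.inl ℝ E F) =
      ContinuousLinearMap.id ℝ E := by ext; simp
  rw [h3, Fm.pull_id]
  rfl

theorem pull_inr_ps (a : Lam F) : pull (ContinuousLinearMap.inr ℝ E F) (ps a) = a := by
  rw [ps, ← pull_comp_apply]
  have h3 : (ContinuousLinearMap.snd ℝ E F).comp (ContinuousLinearMap.inr ℝ E F) =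
      ContinuousLinearMap.id ℝ F := by ext; simp
  rw [h3, Fm.pull_id]
  rfl

theorem pull_inr_pf (a : Lam E) : pull (ContinuousLinearMap.inr ℝ E F) (pf a) =
    algebraMap ℝ (Lam F) (aug a) := by
  rw [pf, ← pull_comp_apply]
  have h3 : (ContinuousLinearMap.fst ℝ E F).comp (ContinuousLinearMap.inr ℝ E F) = 0 := by
    ext; simp
  rw [h3, pull_zero]

theorem slice_mul_pf {k : ℕ} (v : Fin k → F) (w : Lam (E × F)) (a : Lam E) :
    slice v (w * pf a) = slice v w * a := by
  rw [slice_apply, slice_apply, cont_mul_pf, map_mul, pull_inl_pf]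

/-- contractions anticommute -/
theorem iprod_cont {k : ℕ} (u : E) (v : Fin k → E) (w : Lam E) :
    iprod u (cont v w) = (-1 : ℝ) ^ k • cont v (iprod u w) := by
  induction k generalizing w with
  | zero => simp
  | succ k ih =>
    rw [cont_succ, cont_succ, ih, iprod_anticomm u (v 0) w, map_neg, pow_succ, mul_neg_one,
      neg_smul, smul_neg]

theorem aug_slice {k : ℕ} (v : Fin k → F) (w : Lam (E × F)) :
    aug (slice v w) = evalForm (pull (ContinuousLinearMap.inr ℝ E F) w) v := by
  rw [slice_apply, aug_pull, evalForm_pull, evalForm_apply]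
  rfl

theorem aug_iprod_slice {k : ℕ} (v : Fin k → F) (u : E) (w : Lam (E × F)) :
    aug (iprod u (slice v w)) = (-1 : ℝ) ^ k *
      evalForm (pull (ContinuousLinearMap.inr ℝ E F) (iprod ((u, 0) : E × F) w)) v := by
  rw [← aug_slice, slice_apply, slice_apply, pull_iprod, aug_pull, aug_pull]
  have h : (ContinuousLinearMap.inl ℝ E F) u = ((u, 0) : E × F) := rfl
  rw [h, iprod_cont, map_smul, smul_eq_mul]

/-- vanishing of the degree one part of a fibre integral -/
theorem aug_iprod_slice_eq_zero {k : ℕ} (b : Basis (Fin k) ℝ F) (u : E) {w : Lam (E × F)} {z : F}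
    (hz : z ≠ 0) (hw : iprod ((0, z) : E × F) w = 0) : aug (iprod u (slice b w)) = 0 := by
  rw [aug_iprod_slice, evalForm_eq_zero_of_iprod b hz, mul_zero]
  rw [pull_iprod]
  have h : (ContinuousLinearMap.inr ℝ E F) z = ((0, z) : E × F) := rfl
  rw [h, iprod_anticomm, hw, map_zero, neg_zero, map_zero]

theorem iprod_pow_eq_zero {w : Lam E} {v : E} (hw : iprod v w = 0) (n : ℕ) :
    iprod v (w ^ n) = 0 := by
  induction n with
  | zero => simp
  | succ n ih => rw [pow_succ, iprod_mul, ih, hw, zero_mul, mul_zero, add_zero]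

theorem iprod_mul_eq_zero {w w' : Lam E} {v : E} (hw : iprod v w = 0) (hw' : iprod v w' = 0) :
    iprod v (w * w') = 0 := by
  rw [iprod_mul, hw, hw', zero_mul, mul_zero, add_zero]

/-! ### exterior derivatives of powers -/

theorem extd_pow_closed {w : E → Lam E} {x : E} (hw : DifferentiableAt ℝ w x)
    (h0 : extd w x = 0) (n : ℕ) : extd (fun y => w y ^ n) x = 0 := by
  induction n with
  | zero => simp
  | succ n ih =>
    have h : (fun y => w y ^ (n + 1)) = fun y => w y ^ n * w y := by
      funext y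
      rw [pow_succ]
    rw [h, extd_mul (hw.fun_pow n) hw, ih, h0, zero_mul, mul_zero, add_zero]

/-! ### the differential of the cutoff -/

/-- the differential of a function, as a form -/
noncomputable def dR (r : F → ℝ) (y : F) : Lam F := dx (fderiv ℝ r y)

theorem isDeg_dR (r : F → ℝ) (y : F) : IsDeg 1 (dR r y) := isDeg_dx _

theorem dR_eq {r : F → ℝ} (hr : Differentiable ℝ r) : dR r = extd (Fm.fn r) := by
  funext y
  rw [extd_fn (hr y)]
  rfl

theorem contDiff_dR {r : F → ℝ} (hr : ContDiff ℝ ∞ r) : ContDiff ℝ ∞ (dR r) :=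
  (dx (E := F)).contDiff.comp (hr.fderiv_right (m := ∞) (by simp))

theorem extd_dR {r : F → ℝ} (hr : ContDiff ℝ ∞ r) (y : F) : extd (dR r) y = 0 := by
  rw [dR_eq (hr.differentiable (by simp))]
  refine extd_extd ?_
  have h : Fm.fn r = fun y => r y • (1 : Lam F) := by
    funext y
    rw [Fm.fn, Algebra.algebraMap_eq_smul_one]
  rw [h]
  have h2 : (2 : WithTop ℕ∞) ≤ ∞ := WithTop.coe_le_coe.2 le_top
  have h3 : ContDiff ℝ ∞ fun y => r y • (1 : Lam F) :=
    hr.smul (contDiff_const (c := (1 : Lam F)))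
  exact (h3.of_le h2).contDiffAt

/-- the hypotheses on the cutoff function -/
structure Cut (r : F → ℝ) (K : Set F) : Prop where
  smooth : ContDiff ℝ ∞ r
  compact : IsCompact K
  one : ∀ y ∉ K, r y = 1
  zero : ∀ᶠ y in 𝓝 (0 : F), r y = 0

theorem Cut.dR_out {r : F → ℝ} {K : Set F} (h : Cut r K) {y : F} (hy : y ∉ K) : dR r y = 0 := by
  have h1 : r =ᶠ[𝓝 y] fun _ => 1 := by
    filter_upwards [h.compact.isClosed.isOpen_compl.mem_nhds hy] with z hz using h.one z hz
  rw [dR, h1.fderiv_eq]
  simp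

theorem Cut.dR_near {r : F → ℝ} {K : Set F} (h : Cut r K) : ∀ᶠ y in 𝓝 (0 : F), dR r y = 0 := by
  filter_upwards [eventually_eventually_nhds.2 h.zero] with y hy
  have h1 : r =ᶠ[𝓝 y] fun _ => 0 := hy
  rw [dR, h1.fderiv_eq]
  simp

/-! ### the fibre operator -/

/-- multiplication by the differential of the cutoff -/
noncomputable def cw (r : F → ℝ) (w : E × F → Lam (E × F)) (z : E × F) : Lam (E × F) :=
  ps (dR r z.2) * w z

/-- the fibre operator -/
noncomputable def phi (μ : Measure F) {k : ℕ} (b : Fin k → F) (r : F → ℝ)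
    (w : E × F → Lam (E × F)) (x : E) : Lam E := fib μ b (cw r w) x

theorem cw_near {r : F → ℝ} {K : Set F} (h : Cut r K) (w : E × F → Lam (E × F)) (x : E) :
    cw r w =ᶠ[𝓝 (x, 0)] fun _ => 0 := by
  have h1 : Tendsto (Prod.snd : E × F → F) (𝓝 (x, 0)) (𝓝 0) := continuous_snd.continuousAt
  filter_upwards [h1.eventually h.dR_near] with z hz
  rw [cw, hz, ps, map_zero, zero_mul]

theorem cw_out {r : F → ℝ} {K : Set F} (h : Cut r K) (w : E × F → Lam (E × F)) (x : E) {y : F}
    (hy : y ∉ K) : cw r w (x, y) = 0 := by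
  rw [cw, h.dR_out hy, ps, map_zero, zero_mul]

theorem contDiff_ps {r : F → ℝ} (hr : ContDiff ℝ ∞ r) :
    ContDiff ℝ ∞ fun z : E × F => (ps (dR r z.2) : Lam (E × F)) :=
  (pullL (ContinuousLinearMap.snd ℝ E F)).contDiff.comp
    ((contDiff_dR hr).comp (contDiff_snd (E := E) (F := F)))

theorem contDiffOn_cw {r : F → ℝ} {K : Set F} (h : Cut r K) {U : Set E} (hU : IsOpen U)
    {w : E × F → Lam (E × F)} (hw : ContDiffOn ℝ ∞ w (U ×ˢ {0}ᶜ)) :
    ContDiffOn ℝ ∞ (cw r w) (U ×ˢ univ) := by
  rintro ⟨x, y⟩ ⟨hx, -⟩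
  refine ContDiffAt.contDiffWithinAt ?_
  rcases eq_or_ne y 0 with rfl | hy
  · have h2 : ContDiffAt ℝ ∞ (fun _ : E × F => (0 : Lam (E × F))) (x, 0) := contDiffAt_const
    exact h2.congr_of_eventuallyEq (cw_near h w x)
  · have h1 : ContDiffAt ℝ ∞ w (x, y) :=
      hw.contDiffAt ((hU.prod isOpen_compl_singleton).mem_nhds ⟨hx, hy⟩)
    exact (contDiff_ps (E := E) h.smooth).contDiffAt.mul h1

theorem contDiffOn_phi (μ : Measure F) [μ.IsAddHaarMeasure] {k : ℕ} (b : Fin k → F) {r : F → ℝ}
    {K : Set F} (h : Cut r K) {U : Set E} (hU : IsOpen U)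
    {w : E × F → Lam (E × F)} (hw : ContDiffOn ℝ ∞ w (U ×ˢ {0}ᶜ)) :
    ContDiffOn ℝ ∞ (phi μ b r w) U :=
  contDiffOn_fib μ hU h.compact b (n := ⊤) (contDiffOn_cw h hU hw) fun x _ _ hy => cw_out h w x hy

theorem integrable_slice (μ : Measure F) [μ.IsAddHaarMeasure] {k : ℕ} (b : Fin k → F) {r : F → ℝ}
    {K : Set F} (h : Cut r K) {U : Set E} (hU : IsOpen U)
    {w : E × F → Lam (E × F)} (hw : ContDiffOn ℝ ∞ w (U ×ˢ {0}ᶜ)) {x : E} (hx : x ∈ U) :
    Integrable (fun y => slice b (cw r w (x, y))) μ := by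
  have h1 : Continuous fun y => cw r w (x, y) :=
    (contDiffOn_cw h hU hw).continuousOn.comp_continuous (Continuous.prodMk_right x)
      fun y => ⟨hx, mem_univ _⟩
  refine Continuous.integrable_of_hasCompactSupport ((slice (E := E) b).continuous.comp h1) ?_
  exact HasCompactSupport.intro h.compact fun y hy => by
    change slice b (cw r w (x, y)) = 0
    rw [cw_out h w x hy, map_zero]

/-- the projection formula -/
theorem phi_mul_pf (μ : Measure F) [μ.IsAddHaarMeasure] {k : ℕ} (b : Fin k → F) {r : F → ℝ}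
    {K : Set F} (h : Cut r K) {U : Set E} (hU : IsOpen U)
    {w : E × F → Lam (E × F)} (hw : ContDiffOn ℝ ∞ w (U ×ˢ {0}ᶜ)) (a : E → Lam E) {x : E}
    (hx : x ∈ U) : phi μ b r (fun z => w z * pf (a z.1)) x = phi μ b r w x * a x := by
  have h1 := ContinuousLinearMap.integral_comp_comm ((ContinuousLinearMap.mul ℝ (Lam E)).flip (a x))
    (integrable_slice μ b h hU hw hx)
  refine Eq.trans ?_ h1
  refine integral_congr_ae (Eventually.of_forall fun y => ?_)
  change slice b (ps (dR r y) * (w (x, y) * pf (a x))) = slice b (ps (dR r y) * w (x, y)) * a x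
  rw [← mul_assoc, slice_mul_pf]

theorem phi_congr (μ : Measure F) {k : ℕ} (b : Fin k → F) {r : F → ℝ}
    {K : Set F} (h : Cut r K) {w w' : E × F → Lam (E × F)} {x : E}
    (hw : ∀ y ≠ 0, w (x, y) = w' (x, y)) : phi μ b r w x = phi μ b r w' x := by
  refine integral_congr_ae (Eventually.of_forall fun y => ?_)
  by_cases hy : y = 0
  · subst hy
    have h1 : dR r (0 : F) = 0 := h.dR_near.self_of_nhds
    simp only [cw, h1, ps, map_zero, zero_mul]
  · simp only [cw]
    rw [hw y hy]

/-- the exterior derivative of a fibre integral -/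
theorem phi_extd (μ : Measure F) [μ.IsAddHaarMeasure] {k : ℕ} (b : Fin k → F) {r : F → ℝ}
    {K : Set F} (h : Cut r K) {U : Set E} (hU : IsOpen U)
    {w : E × F → Lam (E × F)} (hw : ContDiffOn ℝ ∞ w (U ×ˢ {0}ᶜ)) {x : E} (hx : x ∈ U) :
    phi μ b r (extd w) x = -((-1 : ℝ) ^ k • extd (phi μ b r w) x) := by
  have one_le : (1 : WithTop ℕ∞) ≤ ∞ := WithTop.coe_le_coe.2 le_top
  have h1 := extd_fib μ hU h.compact b ((contDiffOn_cw h hU hw).of_le one_le)
    (fun x _ _ hy => cw_out h w x hy) hx
  have h2 : ∀ y, extd (cw r w) (x, y) = -cw r (extd w) (x, y) := by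
    intro y
    rcases eq_or_ne y 0 with rfl | hy
    · rw [extd_congr (cw_near h w x), extd_const, (cw_near h (extd w) x).eq_of_nhds, neg_zero]
    · have hxy : ((x, y) : E × F) ∈ U ×ˢ ({0}ᶜ : Set F) := ⟨hx, hy⟩
      have h3' : ContDiffAt ℝ ∞ w (x, y) :=
        hw.contDiffAt ((hU.prod isOpen_compl_singleton).mem_nhds hxy)
      have h3 : DifferentiableAt ℝ w (x, y) := h3'.differentiableAt (by simp)
      have h4 : DifferentiableAt ℝ (fun z : E × F => (ps (dR r z.2) : Lam (E × F))) (x, y) :=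
        (contDiff_ps h.smooth).differentiable (by simp) _
      have h5 : extd (cw r w) (x, y) = _ := extd_mul h4 h3
      have h6 : (fun z : E × F => (ps (dR r z.2) : Lam (E × F))) = pb Prod.snd (dR r) := by
        funext z
        rw [pb, fderiv_snd]
        rfl
      have h7 : extd (fun z : E × F => (ps (dR r z.2) : Lam (E × F))) (x, y) = 0 := by
        rw [h6, extd_pb contDiff_snd.contDiffAt ((contDiff_dR h.smooth).differentiable (by simp) _),
          pb, extd_dR h.smooth, map_zero]
      rw [h5, h7, zero_mul, zero_add, cw]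
      have h8 : inv (ps (dR r y) : Lam (E × F)) = -ps (dR r y) :=
        ((isDeg_dR r y).pull _).inv_one
      rw [h8, neg_mul]
  have h9 : fib μ b (extd (cw r w)) x = -phi μ b r (extd w) x := by
    rw [phi, fib, fib, ← integral_neg]
    refine integral_congr_ae (Eventually.of_forall fun y => ?_)
    simp only [h2, map_neg]
  rw [h9] at h1
  rw [← neg_eq_iff_eq_neg]
  exact h1

end Vale.Agent.P231.Q
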