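import Vale.Agent.P231.Q.Base

/-!
# P231, block Q: the Fubini theorem
-/

set_option linter.unusedSectionVars false

open Module MeasureTheory Set Filter Topology
open scoped ContDiff

namespace Vale.Agent.P231.Q

open Fm

variable {E : Type*} [NormedAddCommGroup E] [NormedSpace ℝ E] [FiniteDimensional ℝ E]
  [MeasurableSpace E] [BorelSpace E]

variable {U S : Set E} {r f : E → ℝ} {K K' : Set E} {B H : E × E → Lam (E × E)} {G : E → Lam E}
  {ψ : E → Lam E}

/-- the number `q = ∫ ψ (dψ)^m` over the sphere -/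
noncomputable def qv (μ : Measure E) {k : ℕ} (b : Fin k → E) (r : E → ℝ) (ψ : E → Lam E)
    (m : ℕ) : ℝ := ∫ y, evalForm (dR r y * om ψ m y) b ∂μ

/-- the pointwise form of the Fubini theorem -/
theorem Data.phi_eq (D : Data U r B H G) (hU : IsPreconnected U) (h0 : (0 : E) ∈ U)
    (μ : Measure E) [μ.IsAddHaarMeasure] (hr : Cut r K)
    (hB : ∀ y ≠ 0, Fm.pull (ContinuousLinearMap.inr ℝ E E) (B (0, y)) = ψ y)
    {k m : ℕ} (b : Basis (Fin k) ℝ E) (hk : finrank ℝ E = 2 * (m + 1)) {x : E} (hx : x ∈ U) :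
    phi μ b r (fun z => B z * pf (G z.1) ^ (m + 1) * H z ^ m) x =
      qv μ b r ψ m • G x ^ (m + 1) := by
  have hw : ContDiffOn ℝ ∞ (fun z => B z * H z ^ m) (U ×ˢ {0}ᶜ) := D.smB.mul (D.smH.pow m)
  have h1 : phi μ b r (fun z => B z * pf (G z.1) ^ (m + 1) * H z ^ m) x =
      phi μ b r (fun z => (B z * H z ^ m) * pf (G z.1 ^ (m + 1))) x := by
    refine phi_congr μ b hr fun y hy => ?_
    have h5 : inv (pf (F := E) (G x)) = pf (G x) := ((D.degG x hx).pull _).inv_two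
    have h2 : inv (pf (F := E) (G x) ^ (m + 1)) = pf (G x) ^ (m + 1) := by
      rw [map_pow, h5]
    have h3 : pf (F := E) (G x) ^ (m + 1) = pf (G x ^ (m + 1)) := (map_pow _ _ _).symm
    change B (x, y) * pf (G x) ^ (m + 1) * H (x, y) ^ m =
      B (x, y) * H (x, y) ^ m * pf (G x ^ (m + 1))
    rw [mul_assoc, mul_comm_of_even h2, ← mul_assoc, h3]
  have h4 : IsDeg (finrank ℝ E) (G x ^ (m + 1)) := by
    rw [hk]
    exact (D.degG x hx).pow (m + 1)
  rw [h1, phi_mul_pf μ b hr D.openU hw (fun x => G x ^ (m + 1)) hx, mul_top h4,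
    D.aug_phi_const μ b hr m hU hx h0, D.aug_phi_value μ b hr m h0 hB]
  rfl

/-- **the Fubini theorem** -/
theorem Data.main (D : Data U r B H G) (hU : IsPreconnected U) (h0 : (0 : E) ∈ U)
    (μ : Measure E) [μ.IsAddHaarMeasure] (hr : Cut r K) (hψ : Ang ψ)
    (hB : ∀ y ≠ 0, Fm.pull (ContinuousLinearMap.inr ℝ E E) (B (0, y)) = ψ y)
    (hf : Cut f K') (hKS : K' ⊆ S) (hSU : S ⊆ U) (hS : MeasurableSet S)
    (hG : ∀ x ∈ S, G x = extd (fun z => f z • ψ z) x)
    {k m : ℕ} (b : Basis (Fin k) ℝ E) (hk : finrank ℝ E = 2 * (m + 1)) :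
    ∫ x in S, evalForm (phi μ b r (fun z => B z * pf (G z.1) ^ (m + 1) * H z ^ m) x) b ∂μ =
      qv μ b r ψ m * qv μ b r ψ m := by
  have h1 : ∀ x ∈ S, evalForm (phi μ b r (fun z => B z * pf (G z.1) ^ (m + 1) * H z ^ m) x) b =
      qv μ b r ψ m * evalForm (extd (fun z => f z • ψ z) x ^ (m + 1)) b := by
    intro x hx
    rw [D.phi_eq hU h0 μ hr hB b hk (hSU hx), evalForm_smul, hG x hx]
  rw [setIntegral_congr_fun hS h1]
  have h2 : ∫ x in S, qv μ b r ψ m * evalForm (extd (fun z => f z • ψ z) x ^ (m + 1)) b ∂μ =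
      ∫ x, qv μ b r ψ m * evalForm (extd (fun z => f z • ψ z) x ^ (m + 1)) b ∂μ := by
    refine setIntegral_eq_integral_of_forall_compl_eq_zero fun x hx => ?_
    rw [hψ.eval_top hf b m x, hf.dR_out fun h => hx (hKS h), zero_mul, evalForm_zero, mul_zero,
      mul_zero]
  rw [h2, integral_const_mul, hψ.base hf hr μ b m]
  rfl

end Vale.Agent.P231.Q
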