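import Vale.Agent.P231.Q.Fub

/-!
# P231, block Q: the two factors of the Fubini theorem
-/

set_option linter.unusedSectionVars false

open Module MeasureTheory Set Filter Topology
open scoped ContDiff

namespace Vale.Agent.P231.Q

open Fm

variable {E : Type*} [NormedAddCommGroup E] [NormedSpace ℝ E] [FiniteDimensional ℝ E]
variable {F : Type*} [NormedAddCommGroup F] [NormedSpace ℝ F] [FiniteDimensional ℝ F]
  [MeasurableSpace F] [BorelSpace F]

/-! ### the fibre integral at one point -/

section Fibre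

variable {U : Set E} {r : F → ℝ} {K : Set F} {B H : E × F → Lam (E × F)} {G : E → Lam E}

/-- restriction of the data to one fibre -/
theorem Data.pull_inr_H (D : Data U r B H G) {x : E} (hx : x ∈ U) {ψ : F → Lam F}
    (hψ : ∀ y ≠ 0, pull (ContinuousLinearMap.inr ℝ E F) (B (x, y)) = ψ y) {y : F} (hy : y ≠ 0) :
    pull (ContinuousLinearMap.inr ℝ E F) (H (x, y)) = extd ψ y := by
  have hf : ∀ z, HasFDerivAt (fun z : F => ((x, z) : E × F)) (ContinuousLinearMap.inr ℝ E F) z :=
    fun z => hasFDerivAt_prodMk_right x z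
  have h1 : ψ =ᶠ[𝓝 y] pb (fun z : F => ((x, z) : E × F)) B := by
    filter_upwards [isOpen_compl_singleton.mem_nhds hy] with z hz
    rw [pb, (hf z).fderiv, hψ z hz]
  have h2 : ContDiffAt ℝ 2 (fun z : F => ((x, z) : E × F)) y :=
    contDiffAt_const.prodMk contDiffAt_id
  rw [extd_congr h1, extd_pb h2 (D.diffB hx hy), pb, (hf y).fderiv, D.dB x hx y hy, map_sub,
    pull_inr_pf, (D.degG x hx).aug two_ne_zero, map_zero, sub_zero]

theorem Data.aug_phi_value (D : Data U r B H G) (μ : Measure F) [μ.IsAddHaarMeasure] {k : ℕ}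
    (b : Basis (Fin k) ℝ F) (hr : Cut r K) (m : ℕ) {x : E} (hx : x ∈ U) {ψ : F → Lam F}
    (hψ : ∀ y ≠ 0, pull (ContinuousLinearMap.inr ℝ E F) (B (x, y)) = ψ y) :
    aug (phi μ b r (fun z => B z * H z ^ m) x) =
      ∫ y, evalForm (dR r y * (ψ y * extd ψ y ^ m)) b ∂μ := by
  have hw : ContDiffOn ℝ ∞ (fun z => B z * H z ^ m) (U ×ˢ {0}ᶜ) := D.smB.mul (D.smH.pow m)
  have h1 := ContinuousLinearMap.integral_comp_comm (augL (E := E))
    (integrable_slice μ b hr D.openU hw hx)
  change augL (∫ y, slice b (cw r (fun z => B z * H z ^ m) (x, y)) ∂μ) = _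
  rw [← h1]
  refine integral_congr_ae (Eventually.of_forall fun y => ?_)
  change aug (slice b (cw r (fun z => B z * H z ^ m) (x, y))) = _
  rcases eq_or_ne y 0 with rfl | hy
  · have h2 : dR r (0 : F) = 0 := hr.dR_near.self_of_nhds
    rw [(cw_near hr _ x).eq_of_nhds]
    simp only [h2, zero_mul]
    rw [map_zero, map_zero]
    exact (map_zero (evalL (b : Fin k → F))).symm
  · rw [aug_slice, cw, map_mul, map_mul, map_pow, pull_inr_ps, hψ y hy, D.pull_inr_H hx hψ hy]

end Fibre

/-! ### the base integral -/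

/-- a connection form near the unit sphere: smooth, odd, with radially trivial derivative -/
structure Ang (ψ : F → Lam F) : Prop where
  smooth : ContDiffOn ℝ ∞ ψ {0}ᶜ
  odd : ∀ y ≠ 0, inv (ψ y) = -ψ y
  rad : ∀ y ≠ 0, iprod y (extd ψ y) = 0

variable {ψ : F → Lam F}

theorem Ang.at (h : Ang ψ) {y : F} (hy : y ≠ 0) : ContDiffAt ℝ ∞ ψ y :=
  h.smooth.contDiffAt (isOpen_compl_singleton.mem_nhds hy)

theorem Ang.diff (h : Ang ψ) {y : F} (hy : y ≠ 0) : DifferentiableAt ℝ ψ y :=
  (h.at hy).differentiableAt (by simp)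

theorem Ang.at_extd (h : Ang ψ) {y : F} (hy : y ≠ 0) : ContDiffAt ℝ ∞ (extd ψ) y :=
  contDiffAt_extd (h.at hy) (by simp)

theorem Ang.extd_extd (h : Ang ψ) {y : F} (hy : y ≠ 0) : extd (extd ψ) y = 0 := by
  refine Fm.extd_extd ((h.at hy).of_le ?_)
  exact WithTop.coe_le_coe.2 le_top

theorem Ang.even (h : Ang ψ) {y : F} (hy : y ≠ 0) : inv (extd ψ y) = extd ψ y := by
  have h1 : (fun z => inv (ψ z)) =ᶠ[𝓝 y] fun z => -ψ z := by
    filter_upwards [isOpen_compl_singleton.mem_nhds hy] with z hz using h.odd z hz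
  have h2 := extd_inv (h.diff hy)
  rw [extd_congr h1, extd_neg] at h2
  exact (neg_injective h2).symm

/-- the form `ψ (dψ)^m` -/
noncomputable def om (ψ : F → Lam F) (m : ℕ) (y : F) : Lam F := ψ y * extd ψ y ^ m

theorem Ang.at_om (h : Ang ψ) (m : ℕ) {y : F} (hy : y ≠ 0) : ContDiffAt ℝ ∞ (om ψ m) y :=
  (h.at hy).mul ((h.at_extd hy).pow m)

theorem Ang.extd_om (h : Ang ψ) (m : ℕ) {y : F} (hy : y ≠ 0) :
    extd (om ψ m) y = extd ψ y ^ (m + 1) := by
  have hd : DifferentiableAt ℝ (extd ψ) y := (h.at_extd hy).differentiableAt (by simp)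
  have h1 : extd (om ψ m) y = _ := extd_mul (h.diff hy) (hd.fun_pow m)
  rw [h1, extd_pow_closed hd (h.extd_extd hy), mul_zero, add_zero, ← pow_succ']

theorem Ang.eval_extd (h : Ang ψ) {k : ℕ} (b : Basis (Fin k) ℝ F) (m : ℕ) {y : F} (hy : y ≠ 0) :
    evalForm (extd ψ y ^ (m + 1)) b = 0 :=
  evalForm_eq_zero_of_iprod b hy (iprod_pow_eq_zero (h.rad y hy) _)

/-- the binomial formula with a square zero term -/
theorem add_pow_sq_zero {A : Type*} [Ring A] {u v : A} (hu : u * u = 0) (hc : u * v = v * u)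
    (m : ℕ) : (u + v) ^ (m + 1) = v ^ (m + 1) + (m + 1) • (u * v ^ m) := by
  have hcm : ∀ m, u * v ^ m = v ^ m * u := fun m => (Commute.pow_right hc m).eq
  induction m with
  | zero => simp [add_comm]
  | succ m ih =>
    have h1 : u * v ^ m * u = 0 := by rw [hcm, mul_assoc, hu, mul_zero]
    rw [pow_succ (u + v), ih, add_mul, mul_add, mul_add, smul_mul_assoc, smul_mul_assoc, h1,
      smul_zero, zero_add, ← pow_succ, mul_assoc, ← pow_succ, ← hcm,
      succ_nsmul (u * v ^ (m + 1)) (m + 1)]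
    rw [add_comm (u * v ^ (m + 1)) (v ^ (m + 1 + 1)), add_assoc, add_comm (u * v ^ (m + 1))]

theorem evalForm_zero {k : ℕ} (b : Fin k → F) : evalForm (0 : Lam F) b = 0 :=
  map_zero (evalL b)

theorem evalForm_add {k : ℕ} (b : Fin k → F) (v w : Lam F) :
    evalForm (v + w) b = evalForm v b + evalForm w b := map_add (evalL b) v w

theorem evalForm_sub {k : ℕ} (b : Fin k → F) (v w : Lam F) :
    evalForm (v - w) b = evalForm v b - evalForm w b := map_sub (evalL b) v w

theorem evalForm_smul {k : ℕ} (b : Fin k → F) (c : ℝ) (w : Lam F) :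
    evalForm (c • w) b = c * evalForm w b := map_smul (evalL b) c w

/-- the top power of `d(f ψ)` -/
theorem Ang.eval_top (h : Ang ψ) {f : F → ℝ} {K : Set F} (hf : Cut f K) {k : ℕ}
    (b : Basis (Fin k) ℝ F) (m : ℕ) (y : F) :
    evalForm (extd (fun z => f z • ψ z) y ^ (m + 1)) b =
      (m + 1) * f y ^ m * evalForm (dR f y * om ψ m y) b := by
  rcases eq_or_ne y 0 with rfl | hy
  · have h1 : (fun z => f z • ψ z) =ᶠ[𝓝 (0 : F)] fun _ => 0 := by
      filter_upwards [hf.zero] with z hz
      rw [hz, zero_smul]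
    have h2 : dR f (0 : F) = 0 := hf.dR_near.self_of_nhds
    rw [extd_congr h1, extd_const, h2, zero_mul, zero_pow (Nat.succ_ne_zero m), evalForm_zero,
      mul_zero]
  · have hfd : DifferentiableAt ℝ f y := hf.smooth.differentiable (by simp) y
    have h1 : extd (fun z => f z • ψ z) y = dR f y * ψ y + f y • extd ψ y :=
      extd_smul hfd (h.diff hy)
    have h2 : ψ y * dR f y = dR f y * inv (ψ y) := by
      have := dx_mul (fderiv ℝ f y) (inv (ψ y))
      rw [Fm.inv_inv] at this
      exact this.symm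
    have h3 : (dR f y * ψ y) * (dR f y * ψ y) = 0 := by
      rw [mul_assoc, ← mul_assoc (ψ y), h2, ← mul_assoc, ← mul_assoc, dR, dx_mul_self, zero_mul,
        zero_mul]
    have h4 : (dR f y * ψ y) * (f y • extd ψ y) = (f y • extd ψ y) * (dR f y * ψ y) := by
      rw [mul_smul_comm, smul_mul_assoc, mul_comm_of_even (h.even hy)]
    rw [h1, add_pow_sq_zero h3 h4, evalForm_add, smul_pow, evalForm_smul, h.eval_extd b m hy,
      mul_zero, zero_add, ← Nat.cast_smul_eq_nsmul ℝ, evalForm_smul, smul_pow, mul_smul_comm,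
      evalForm_smul, om, mul_assoc, Nat.cast_add, Nat.cast_one, mul_assoc]

/-- continuity and compact support of `dR r * om` -/
theorem Ang.cont (h : Ang ψ) {r : F → ℝ} {K : Set F} (hr : Cut r K) (m : ℕ) :
    Continuous fun y => dR r y * om ψ m y := by
  refine continuous_iff_continuousAt.2 fun y => ?_
  rcases eq_or_ne y 0 with rfl | hy
  · have h1 : (fun y => dR r y * om ψ m y) =ᶠ[𝓝 (0 : F)] fun _ => 0 := by
      filter_upwards [hr.dR_near] with z hz
      rw [hz, zero_mul]
    exact (continuousAt_const (y := (0 : Lam F))).congr h1.symm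
  · exact ((contDiff_dR hr.smooth).contDiffAt.mul (h.at_om m hy)).continuousAt

theorem Ang.integrable (h : Ang ψ) {r : F → ℝ} {K : Set F} (hr : Cut r K) (m : ℕ)
    (μ : Measure F) [μ.IsAddHaarMeasure] {k : ℕ} (b : Fin k → F) :
    Integrable (fun y => evalForm (dR r y * om ψ m y) b) μ := by
  refine Continuous.integrable_of_hasCompactSupport ((evalL b).continuous.comp (h.cont hr m)) ?_
  refine HasCompactSupport.intro hr.compact fun y hy => ?_
  change evalL b (dR r y * om ψ m y) = 0
  rw [hr.dR_out hy, zero_mul, map_zero]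

/-- the base integral -/
theorem Ang.base (h : Ang ψ) {f r : F → ℝ} {K K' : Set F} (hf : Cut f K) (hr : Cut r K')
    (μ : Measure F) [μ.IsAddHaarMeasure] {k : ℕ} (b : Basis (Fin k) ℝ F) (m : ℕ) :
    ∫ y, evalForm (extd (fun z => f z • ψ z) y ^ (m + 1)) b ∂μ =
      ∫ y, evalForm (dR r y * om ψ m y) b ∂μ := by
  -- Stokes for `(f^(m+1) - r) ψ (dψ)^m`
  let g : F → ℝ := fun y => f y ^ (m + 1) - r y
  have hg : ContDiff ℝ ∞ g := (hf.smooth.pow _).sub hr.smooth
  have hg0 : ∀ᶠ y in 𝓝 (0 : F), g y = 0 := by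
    filter_upwards [hf.zero, hr.zero] with y h1 h2
    simp [g, h1, h2]
  have hg1 : ∀ y ∉ K ∪ K', g y = 0 := by
    intro y hy
    rw [mem_union, not_or] at hy
    simp [g, hf.one y hy.1, hr.one y hy.2]
  let w : F → Lam F := fun y => g y • om ψ m y
  have hw0 : w =ᶠ[𝓝 (0 : F)] fun _ => 0 := by
    filter_upwards [hg0] with y hy
    simp [w, hy]
  have hw : ContDiff ℝ 1 w := by
    refine contDiff_iff_contDiffAt.2 fun y => ?_
    rcases eq_or_ne y 0 with rfl | hy
    · have h2 : ContDiffAt ℝ 1 (fun _ : F => (0 : Lam F)) 0 := contDiffAt_const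
      exact h2.congr_of_eventuallyEq hw0
    · have h3 : ContDiffAt ℝ ∞ w y := hg.contDiffAt.smul (h.at_om m hy)
      exact h3.of_le (WithTop.coe_le_coe.2 le_top)
  have hc : HasCompactSupport w := HasCompactSupport.intro (hf.compact.union hr.compact)
    fun y hy => by simp [w, hg1 y hy]
  have hst := integral_evalForm_extd μ b hw hc
  have hpt : ∀ y, evalForm (extd w y) b =
      evalForm (extd (fun z => f z • ψ z) y ^ (m + 1)) b - evalForm (dR r y * om ψ m y) b := by
    intro y
    rw [h.eval_top hf b m y]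
    rcases eq_or_ne y 0 with rfl | hy
    · have h2 : dR f (0 : F) = 0 := hf.dR_near.self_of_nhds
      have h3 : dR r (0 : F) = 0 := hr.dR_near.self_of_nhds
      rw [extd_congr hw0, extd_const, h2, h3, zero_mul, evalForm_zero, mul_zero, sub_zero]
    · have hfd : DifferentiableAt ℝ f y := hf.smooth.differentiable (by simp) y
      have hrd : DifferentiableAt ℝ r y := hr.smooth.differentiable (by simp) y
      have hgd : DifferentiableAt ℝ g y := hg.differentiable (by simp) y
      have h1 : extd w y = dx (fderiv ℝ g y) * om ψ m y + g y • extd (om ψ m) y :=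
        extd_smul hgd ((h.at_om m hy).differentiableAt (by simp))
      have h2 : fderiv ℝ g y = ((m + 1 : ℝ) * f y ^ m) • fderiv ℝ f y - fderiv ℝ r y := by
        have h3 := (hfd.hasFDerivAt.pow (m + 1)).sub hrd.hasFDerivAt
        have h4 : HasFDerivAt g _ y := h3
        rw [h4.fderiv]
        congr 1
        rw [Nat.add_sub_cancel, nsmul_eq_mul, Nat.cast_add, Nat.cast_one]
      rw [h1, h.extd_om m hy, evalForm_add, evalForm_smul, h.eval_extd b m hy, mul_zero, add_zero,
        h2, map_sub, map_smul, sub_mul, smul_mul_assoc, evalForm_sub, evalForm_smul]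
      rfl
  simp only [hpt] at hst
  have hi1 : Integrable (fun y => evalForm (extd (fun z => f z • ψ z) y ^ (m + 1)) b) μ := by
    have h5 : (fun y => evalForm (extd (fun z => f z • ψ z) y ^ (m + 1)) b) =
        fun y => (m + 1) * f y ^ m * evalForm (dR f y * om ψ m y) b := by
      funext y
      exact h.eval_top hf b m y
    rw [h5]
    have h6 : Continuous fun y => (m + 1) * f y ^ m * evalForm (dR f y * om ψ m y) b :=
      (continuous_const.mul (hf.smooth.continuous.pow m)).mul
        ((evalL b).continuous.comp (h.cont hf m))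
    refine h6.integrable_of_hasCompactSupport (HasCompactSupport.intro hf.compact fun y hy => ?_)
    rw [hf.dR_out hy, zero_mul, evalForm_zero, mul_zero]
  rw [integral_sub hi1 (h.integrable hr m μ b)] at hst
  exact sub_eq_zero.1 hst

end Vale.Agent.P231.Q
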