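import Vale.Agent.P231.Q.Phi

/-!
# P231, block Q: the Fubini theorem

`∫_{|ξ| < D} ∫_{S^N} B ∧ G^n ∧ H^(n-1) = q * q`.
-/

set_option linter.unusedSectionVars false

open Module MeasureTheory Set Filter Topology
open scoped ContDiff

namespace Vale.Agent.P231.Q

open Fm

variable {E : Type*} [NormedAddCommGroup E] [NormedSpace ℝ E] [FiniteDimensional ℝ E]
variable {F : Type*} [NormedAddCommGroup F] [NormedSpace ℝ F] [FiniteDimensional ℝ F]
  [MeasurableSpace F] [BorelSpace F]

/-- `aug ∘ iprod v` as a continuous linear form -/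
noncomputable def ai (v : E) : Lam E →L[ℝ] ℝ :=
  LinearMap.toContinuousLinearMap (aug.toLinearMap ∘ₗ iprod v)

theorem ai_apply (v : E) (w : Lam E) : ai v w = aug (iprod v w) := rfl

/-- `aug` as a continuous linear form -/
noncomputable def augL : Lam E →L[ℝ] ℝ := LinearMap.toContinuousLinearMap aug.toLinearMap

theorem augL_apply (w : Lam E) : augL w = aug w := rfl

/-- the derivative of the degree zero part -/
theorem hasFDerivAt_aug {w : E → Lam E} {x : E} (hw : DifferentiableAt ℝ w x)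
    (h0 : ∀ v, aug (iprod v (extd w x)) = 0) : HasFDerivAt (fun y => aug (w y)) (0 : E →L[ℝ] ℝ) x := by
  have h1 : HasFDerivAt (fun y => augL (w y)) (augL ∘L fderiv ℝ w x) x :=
    (augL (E := E)).hasFDerivAt.comp x hw.hasFDerivAt
  have h2 : augL ∘L fderiv ℝ w x = 0 := by
    refine ContinuousLinearMap.ext fun v => ?_
    have h3 := iprod_extd hw v
    have h4 : aug (fderiv ℝ w x v) = aug (iprod v (extd w x)) +
        aug (extd (fun y => iprod v (w y)) x) := by rw [← h3, map_add]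
    change aug (fderiv ℝ w x v) = 0
    rw [h4, h0, extd, aug_dLin, add_zero]
  rw [h2] at h1
  exact h1

/-- the data of the block: `B`, `H` forms near the sphere bundle, `G` a two-form on the base -/
structure Data (U : Set E) (r : F → ℝ) (B H : E × F → Lam (E × F)) (G : E → Lam E) : Prop where
  openU : IsOpen U
  smB : ContDiffOn ℝ ∞ B (U ×ˢ {0}ᶜ)
  smH : ContDiffOn ℝ ∞ H (U ×ˢ {0}ᶜ)
  dB : ∀ x ∈ U, ∀ y ≠ 0, extd B (x, y) = H (x, y) - pf (G x)
  dH : ∀ x ∈ U, ∀ y ≠ 0, extd H (x, y) = 0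
  degG : ∀ x ∈ U, IsDeg 2 (G x)
  degH : ∀ x ∈ U, ∀ y ≠ 0, IsDeg 2 (H (x, y))
  null : ∀ x ∈ U, ∀ y ≠ 0, ∃ z : F, z ≠ 0 ∧ fderiv ℝ r y z = 0 ∧
    iprod ((0, z) : E × F) (H (x, y)) = 0

variable {U : Set E} {r : F → ℝ} {K : Set F} {B H : E × F → Lam (E × F)} {G : E → Lam E}

theorem Data.mem (_ : Data U r B H G) {x : E} (hx : x ∈ U) {y : F} (hy : y ≠ 0) :
    ((x, y) : E × F) ∈ U ×ˢ ({0}ᶜ : Set F) := ⟨hx, hy⟩

theorem Data.nhds (D : Data U r B H G) {x : E} (hx : x ∈ U) {y : F} (hy : y ≠ 0) :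
    U ×ˢ ({0}ᶜ : Set F) ∈ 𝓝 ((x, y) : E × F) :=
  (D.openU.prod isOpen_compl_singleton).mem_nhds (D.mem hx hy)

theorem Data.diffB (D : Data U r B H G) {x : E} (hx : x ∈ U) {y : F} (hy : y ≠ 0) :
    DifferentiableAt ℝ B (x, y) := (D.smB.contDiffAt (D.nhds hx hy)).differentiableAt (by simp)

theorem Data.diffH (D : Data U r B H G) {x : E} (hx : x ∈ U) {y : F} (hy : y ≠ 0) :
    DifferentiableAt ℝ H (x, y) := (D.smH.contDiffAt (D.nhds hx hy)).differentiableAt (by simp)

theorem contDiffOn_pow' {w : E × F → Lam (E × F)} {S : Set (E × F)} (hw : ContDiffOn ℝ ∞ w S)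
    (m : ℕ) : ContDiffOn ℝ ∞ (fun z => w z ^ m) S := hw.pow m

/-- the exterior derivative of `B H^m` -/
theorem Data.extd_BH (D : Data U r B H G) (m : ℕ) {x : E} (hx : x ∈ U) {y : F} (hy : y ≠ 0) :
    extd (fun z => B z * H z ^ m) (x, y) = H (x, y) ^ (m + 1) - H (x, y) ^ m * pf (G x) := by
  have h1 : extd (fun z => B z * H z ^ m) (x, y) = _ :=
    extd_mul (D.diffB hx hy) ((D.diffH hx hy).fun_pow m)
  have h2 : pf (F := F) (G x) * H (x, y) ^ m = H (x, y) ^ m * pf (G x) :=
    mul_comm_of_even (((D.degG x hx).pull _).inv_two) _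
  rw [h1, extd_pow_closed (D.diffH hx hy) (D.dH x hx y hy), mul_zero, add_zero, D.dB x hx y hy,
    sub_mul, h2, ← pow_succ']

/-- the degree zero part of the fibre integral is locally constant -/
theorem Data.aug_phi (D : Data U r B H G) (μ : Measure F) [μ.IsAddHaarMeasure] {k : ℕ}
    (b : Basis (Fin k) ℝ F) (hr : Cut r K) (m : ℕ) {x : E} (hx : x ∈ U) :
    HasFDerivAt (fun x => aug (phi μ b r (fun z => B z * H z ^ m) x)) (0 : E →L[ℝ] ℝ) x := by
  have hw : ContDiffOn ℝ ∞ (fun z => B z * H z ^ m) (U ×ˢ {0}ᶜ) := D.smB.mul (D.smH.pow m)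
  have hd : DifferentiableAt ℝ (phi μ b r fun z => B z * H z ^ m) x :=
    ((contDiffOn_phi μ b hr D.openU hw).contDiffAt (D.openU.mem_nhds hx)).differentiableAt
      (by simp)
  refine hasFDerivAt_aug hd fun v => ?_
  have h1 := phi_extd μ b hr D.openU hw hx
  have h2 : extd (phi μ b r fun z => B z * H z ^ m) x =
      -((-1 : ℝ) ^ k • phi μ b r (extd fun z => B z * H z ^ m) x) := by
    rw [h1, smul_neg, neg_neg, smul_smul, ← pow_add, ← two_mul, pow_mul]
    norm_num
  rw [h2, map_neg, map_smul, map_neg, map_smul]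
  -- the two parts
  have h3 : phi μ b r (extd fun z => B z * H z ^ m) x =
      phi μ b r (fun z => H z ^ (m + 1) - H z ^ m * pf (G z.1)) x :=
    phi_congr μ b hr fun y hy => D.extd_BH m hx hy
  have hH1 : ContDiffOn ℝ ∞ (fun z => H z ^ (m + 1)) (U ×ˢ {0}ᶜ) := D.smH.pow _
  have hH2 : ContDiffOn ℝ ∞ (fun z => H z ^ m) (U ×ˢ {0}ᶜ) := D.smH.pow _
  have h4 : aug (iprod v (phi μ b r (fun z => H z ^ (m + 1)) x)) = 0 := by
    have h5 := ContinuousLinearMap.integral_comp_comm (ai v)
      (integrable_slice μ b hr D.openU hH1 hx)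
    change ai v (∫ y, slice b (cw r (fun z => H z ^ (m + 1)) (x, y)) ∂μ) = 0
    rw [← h5, integral_eq_zero_of_ae]
    refine Eventually.of_forall fun y => ?_
    change aug (iprod v (slice b (cw r (fun z => H z ^ (m + 1)) (x, y)))) = 0
    rcases eq_or_ne y 0 with rfl | hy
    · rw [(cw_near hr _ x).eq_of_nhds]
      simp
    · obtain ⟨z, hz, hz1, hz2⟩ := D.null x hx y hy
      refine aug_iprod_slice_eq_zero b v hz ?_
      refine iprod_mul_eq_zero ?_ (iprod_pow_eq_zero hz2 _)
      rw [ps, pull_iprod, dR]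
      have : (ContinuousLinearMap.snd ℝ E F) ((0, z) : E × F) = z := rfl
      rw [this, iprod_dx, hz1, map_zero, map_zero]
  have h6 : aug (iprod v (phi μ b r (fun z => H z ^ m * pf (G z.1)) x)) = 0 := by
    rw [phi_mul_pf μ b hr D.openU hH2 G hx, iprod_mul, map_add, map_mul, map_mul,
      (D.degG x hx).aug two_ne_zero, mul_zero, zero_add, ((D.degG x hx).iprod (k := 1) v).aug
        one_ne_zero, mul_zero]
  have h7 : phi μ b r (fun z => H z ^ (m + 1) - H z ^ m * pf (G z.1)) x =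
      phi μ b r (fun z => H z ^ (m + 1)) x - phi μ b r (fun z => H z ^ m * pf (G z.1)) x := by
    have i1 := integrable_slice μ b hr D.openU hH1 hx
    have i2 : Integrable (fun y => slice b (cw r (fun z => H z ^ m * pf (G z.1)) (x, y))) μ := by
      have i3 := (integrable_slice μ b hr D.openU hH2 hx)
      have i4 := ((ContinuousLinearMap.mul ℝ (Lam E)).flip (G x)).integrable_comp i3
      refine i4.congr (Eventually.of_forall fun y => ?_)
      change slice b (cw r (fun z => H z ^ m) (x, y)) * G x =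
        slice b (ps (dR r y) * (H (x, y) ^ m * pf (G x)))
      rw [← mul_assoc, slice_mul_pf]
      rfl
    have i5 := integral_sub i1 i2
    change ∫ y, slice b (cw r (fun z => H z ^ (m + 1) - H z ^ m * pf (G z.1)) (x, y)) ∂μ = _
    refine Eq.trans ?_ i5
    refine integral_congr_ae (Eventually.of_forall fun y => ?_)
    change slice b (ps (dR r y) * (H (x, y) ^ (m + 1) - H (x, y) ^ m * pf (G x))) =
      slice b (ps (dR r y) * H (x, y) ^ (m + 1)) -
        slice b (ps (dR r y) * (H (x, y) ^ m * pf (G x)))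
    rw [mul_sub, map_sub]
  rw [h3, h7, map_sub, map_sub, h4, h6, sub_zero, smul_zero, neg_zero]

/-- the degree zero part of the fibre integral is constant -/
theorem Data.aug_phi_const (D : Data U r B H G) (μ : Measure F) [μ.IsAddHaarMeasure] {k : ℕ}
    (b : Basis (Fin k) ℝ F) (hr : Cut r K) (m : ℕ) (hU : IsPreconnected U) {x y : E} (hx : x ∈ U)
    (hy : y ∈ U) : aug (phi μ b r (fun z => B z * H z ^ m) x) =
      aug (phi μ b r (fun z => B z * H z ^ m) y) := by
  refine D.openU.is_const_of_fderiv_eq_zero (𝕜 := ℝ)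
    (f := fun x => aug (phi μ b r (fun z => B z * H z ^ m) x)) hU ?_ ?_ hx hy
  · intro z hz
    exact (D.aug_phi μ b hr m hz).differentiableAt.differentiableWithinAt
  · intro z hz
    exact (D.aug_phi μ b hr m hz).fderiv

end Vale.Agent.P231.Q
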